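import Vale.Agent.P227.M.ID.K150.Pt
import Vale.Agent.P227.M.LIN.Iface

/-! # P227/M/ID/K150: Bochner identity (helper150) -/

set_option linter.all false
set_option autoImplicit false

open MeasureTheory Filter Topology Set Metric
open scoped NNReal ContDiff

namespace Vale.Agent.P227.M.K150

open Vale.Agent.P227.M.AE (Good ae_good tau_symm tau_lip S3 S3_symm12 S3_symm23 stein_ae pd_add pd_sub
  pd_mul pd_sum pd_coord diff_coord tau_bound)

variable {n : ℕ} {ψ V : E n → ℝ} {c C M : ℝ}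

theorem hess_symm' {g : E n → ℝ} (hg : Sm g) (x : E n) (i j : Fin n) : hess g x i j = hess g x j i :=
  hg.comm i j x

/-- `∑_ij S_eij N_ij` in two ways -/
theorem boch_alg (h : MM ψ V c C M) {x : E n} (hx : Good ψ x) {f : E n → ℝ} (hf : Sm f) :
    ∑ b, fld ψ f b x * (∑ i, ∑ j, Vale.Agent.P227.M.pd b (fun z => tau ψ z i j) x * hess f x i j) =
      ∑ b, ∑ d, (∑ e, Vale.Agent.P227.M.pd d (fun z => tau ψ z b e) x * Vale.Agent.P227.M.pd e f x) * fld ψ (Vale.Agent.P227.M.pd b f) d x := by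
  have l1 : ∑ b, fld ψ f b x * (∑ i, ∑ j, Vale.Agent.P227.M.pd b (fun z => tau ψ z i j) x * hess f x i j) =
      ∑ e, Vale.Agent.P227.M.pd e f x * ∑ i, ∑ j, S3 ψ x e i j * hess f x i j := by
    have a1 : ∀ b, fld ψ f b x * (∑ i, ∑ j, Vale.Agent.P227.M.pd b (fun z => tau ψ z i j) x * hess f x i j) =
        ∑ e, ∑ i, ∑ j, Vale.Agent.P227.M.pd e f x * (tau ψ x e b * Vale.Agent.P227.M.pd b (fun z => tau ψ z i j) x * hess f x i j) := by
      intro b
      unfold fld
      rw [Finset.sum_mul]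
      refine Finset.sum_congr rfl fun e _ => ?_
      rw [Finset.mul_sum]
      refine Finset.sum_congr rfl fun i _ => ?_
      rw [Finset.mul_sum]
      refine Finset.sum_congr rfl fun j _ => ?_
      rw [tau_symm h x b e]
      ring
    simp only [a1]
    rw [Finset.sum_comm]
    refine Finset.sum_congr rfl fun e _ => ?_
    rw [Finset.sum_comm, Finset.mul_sum]
    refine Finset.sum_congr rfl fun i _ => ?_
    rw [Finset.sum_comm, Finset.mul_sum]
    refine Finset.sum_congr rfl fun j _ => ?_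
    unfold S3
    rw [Finset.sum_mul, Finset.mul_sum]
  have l2 : ∑ b, ∑ d, (∑ e, Vale.Agent.P227.M.pd d (fun z => tau ψ z b e) x * Vale.Agent.P227.M.pd e f x) * fld ψ (Vale.Agent.P227.M.pd b f) d x =
      ∑ e, Vale.Agent.P227.M.pd e f x * ∑ i, ∑ j, S3 ψ x e i j * hess f x i j := by
    have a1 : ∀ b d, (∑ e, Vale.Agent.P227.M.pd d (fun z => tau ψ z b e) x * Vale.Agent.P227.M.pd e f x) * fld ψ (Vale.Agent.P227.M.pd b f) d x =
        ∑ e, ∑ g, Vale.Agent.P227.M.pd e f x * (tau ψ x g d * Vale.Agent.P227.M.pd d (fun z => tau ψ z b e) x * hess f x g b) := by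
      intro b d
      unfold fld
      rw [Finset.sum_mul]
      refine Finset.sum_congr rfl fun e _ => ?_
      rw [Finset.mul_sum]
      refine Finset.sum_congr rfl fun g _ => ?_
      rw [tau_symm h x d g]
      simp only [hess]
      ring
    simp only [a1]
    have a2 : ∀ b, ∑ d, ∑ e, ∑ g, Vale.Agent.P227.M.pd e f x * (tau ψ x g d * Vale.Agent.P227.M.pd d (fun z => tau ψ z b e) x * hess f x g b) =
        ∑ e, ∑ g, Vale.Agent.P227.M.pd e f x * (S3 ψ x g b e * hess f x g b) := by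
      intro b
      rw [Finset.sum_comm]
      refine Finset.sum_congr rfl fun e _ => ?_
      rw [Finset.sum_comm]
      refine Finset.sum_congr rfl fun g _ => ?_
      unfold S3
      rw [Finset.sum_mul, Finset.mul_sum]
    simp only [a2]
    rw [Finset.sum_comm]
    refine Finset.sum_congr rfl fun e _ => ?_
    rw [Finset.sum_comm, Finset.mul_sum]
    refine Finset.sum_congr rfl fun g _ => ?_
    rw [Finset.mul_sum]
    refine Finset.sum_congr rfl fun b _ => ?_
    rw [S3_symm23 h x g b e, S3_symm12 h hx g e b]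
  rw [l1, l2]

theorem boch_tr (h : MM ψ V c C M) {x : E n} {f : E n → ℝ} (hf : Sm f) :
    ∑ b, ∑ d, (∑ e, tau ψ x b e * Vale.Agent.P227.M.pd d (Vale.Agent.P227.M.pd e f) x) * fld ψ (Vale.Agent.P227.M.pd b f) d x =
      (tau ψ x * hess f x * tau ψ x * hess f x).trace := by
  rw [Matrix.mul_assoc (tau ψ x * hess f x)]
  simp only [Matrix.trace, Matrix.diag, Matrix.mul_apply]
  refine Finset.sum_congr rfl fun b _ => Finset.sum_congr rfl fun d _ => ?_
  congr 1
  refine Finset.sum_congr rfl fun e _ => ?_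
  rw [hess_symm' hf x e d]
  rfl

/-- unnormalised Bochner identity -/
theorem null_boch (h : MM ψ V c C M) (hV : ContDiff ℝ 1 V) {f : E n → ℝ} (hf : Test f) :
    Null V (fun x => (Lop ψ f x) ^ 2 - (tau ψ x * hess f x * tau ψ x * hess f x).trace -
      ∑ b, Vale.Agent.P227.M.pd b f x * fld ψ f b x) := by
  have hcs : CS f := CS.of_hasCompactSupport hf.2
  have hs : Sm f := hf.1
  have h1 : Null V (fun x => ∑ b, (Vale.Agent.P227.M.pd b (fun z => Lop ψ f z * fld ψ f b z) x -
      Vale.Agent.P227.M.pd b V x * (Lop ψ f x * fld ψ f b x))) :=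
    Null.sum _ fun b _ => null_DV hV ((ll_Lop h hs).mul (ll_fld' h hs b)) (cs_fld hcs b).mul_left b
  have h2 : Null V (fun x => ∑ b, ∑ d, (Vale.Agent.P227.M.pd d (fun z => fld ψ f b z * fld ψ (Vale.Agent.P227.M.pd b f) d z) x -
      Vale.Agent.P227.M.pd d V x * (fld ψ f b x * fld ψ (Vale.Agent.P227.M.pd b f) d x))) :=
    Null.sum _ fun b _ => Null.sum _ fun d _ =>
      null_DV hV ((ll_fld' h hs b).mul (ll_fld' h (hs.pd b) d)) (cs_fld hcs b).mul_right d
  refine (h1.sub h2).congr ?_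
  filter_upwards [ae_good h] with x hx
  have dL := diff_Lop hx hs
  have dF : ∀ b, DifferentiableAt ℝ (fld ψ f b) x := fun b => diff_fld hx (fun i => (hs.pd i).diff x) b
  have dG : ∀ b d, DifferentiableAt ℝ (fld ψ (Vale.Agent.P227.M.pd b f) d) x :=
    fun b d => diff_fld hx (fun i => ((hs.pd b).pd i).diff x) d
  have e1 : ∑ b, (Vale.Agent.P227.M.pd b (fun z => Lop ψ f z * fld ψ f b z) x -
      Vale.Agent.P227.M.pd b V x * (Lop ψ f x * fld ψ f b x)) =
      (∑ b, fld ψ f b x * Lop ψ (Vale.Agent.P227.M.pd b f) x) +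
      (∑ b, fld ψ f b x * (∑ i, ∑ j, Vale.Agent.P227.M.pd b (fun z => tau ψ z i j) x * hess f x i j)) -
      (∑ b, Vale.Agent.P227.M.pd b f x * fld ψ f b x) + (Lop ψ f x) ^ 2 := by
    have a1 : ∀ b, Vale.Agent.P227.M.pd b (fun z => Lop ψ f z * fld ψ f b z) x -
        Vale.Agent.P227.M.pd b V x * (Lop ψ f x * fld ψ f b x) =
        (fld ψ f b x * Lop ψ (Vale.Agent.P227.M.pd b f) x +
        fld ψ f b x * (∑ i, ∑ j, Vale.Agent.P227.M.pd b (fun z => tau ψ z i j) x * hess f x i j) -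
        Vale.Agent.P227.M.pd b f x * fld ψ f b x) +
        Lop ψ f x * (Vale.Agent.P227.M.pd b (fld ψ f b) x - Vale.Agent.P227.M.pd b V x * fld ψ f b x) := by
      intro b
      rw [pd_mul dL (dF b), pd_Lop h hx hs b]
      ring
    simp only [a1, Finset.sum_add_distrib, Finset.sum_sub_distrib]
    rw [← Finset.mul_sum, div_fld h hx hs]
    ring
  have e2 : ∑ b, ∑ d, (Vale.Agent.P227.M.pd d (fun z => fld ψ f b z * fld ψ (Vale.Agent.P227.M.pd b f) d z) x -
      Vale.Agent.P227.M.pd d V x * (fld ψ f b x * fld ψ (Vale.Agent.P227.M.pd b f) d x)) =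
      (∑ b, ∑ d, (∑ e, Vale.Agent.P227.M.pd d (fun z => tau ψ z b e) x * Vale.Agent.P227.M.pd e f x) * fld ψ (Vale.Agent.P227.M.pd b f) d x) +
      (∑ b, ∑ d, (∑ e, tau ψ x b e * Vale.Agent.P227.M.pd d (Vale.Agent.P227.M.pd e f) x) * fld ψ (Vale.Agent.P227.M.pd b f) d x) +
      ∑ b, fld ψ f b x * Lop ψ (Vale.Agent.P227.M.pd b f) x := by
    have a1 : ∀ b d, Vale.Agent.P227.M.pd d (fun z => fld ψ f b z * fld ψ (Vale.Agent.P227.M.pd b f) d z) x -
        Vale.Agent.P227.M.pd d V x * (fld ψ f b x * fld ψ (Vale.Agent.P227.M.pd b f) d x) =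
        (∑ e, Vale.Agent.P227.M.pd d (fun z => tau ψ z b e) x * Vale.Agent.P227.M.pd e f x) * fld ψ (Vale.Agent.P227.M.pd b f) d x +
        (∑ e, tau ψ x b e * Vale.Agent.P227.M.pd d (Vale.Agent.P227.M.pd e f) x) * fld ψ (Vale.Agent.P227.M.pd b f) d x +
        fld ψ f b x * (Vale.Agent.P227.M.pd d (fld ψ (Vale.Agent.P227.M.pd b f) d) x - Vale.Agent.P227.M.pd d V x * fld ψ (Vale.Agent.P227.M.pd b f) d x) := by
      intro b d
      rw [pd_mul (dF b) (dG b d), pd_fld hx (fun i => (hs.pd i).diff x) d b, Finset.sum_add_distrib]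
      ring
    simp only [a1, Finset.sum_add_distrib]
    congr 1
    refine Finset.sum_congr rfl fun b _ => ?_
    rw [← Finset.mul_sum, div_fld h hx (hs.pd b)]
  rw [e1, e2, boch_alg h hx hs, boch_tr h hs]
  ring

theorem lb_hess {f : E n → ℝ} (hf : Sm f) (i j : Fin n) : LB (fun x => hess f x i j) :=
  ((hf.pd j).pd i).ll.lb

theorem cs_hess {f : E n → ℝ} (hf : CS f) (i j : Fin n) : CS (fun x => hess f x i j) :=
  (hf.pd j).pd i

theorem int_of {V f : E n → ℝ} (hV : Continuous V) (h : LB f) (hs : CS f) :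
    Integrable (fun x => f x * Real.exp (-V x)) :=
  integrable_of (h.exp_mul hV) hs.mul_right

theorem lb_tr4 (h : MM ψ V c C M) {f : E n → ℝ} (hf : Sm f) :
    LB (fun x => (tau ψ x * hess f x * tau ψ x * hess f x).trace) := by
  simp only [Matrix.trace, Matrix.diag, Matrix.mul_apply]
  refine LB.sum _ fun i _ => LB.sum _ fun j _ => LB.mul (LB.sum _ fun k _ => LB.mul
    (LB.sum _ fun l _ => LB.mul ?_ ?_) ?_) ?_
  · exact (ll_tau h i l).lb
  · exact lb_hess hf l k
  · exact (ll_tau h k j).lb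
  · exact lb_hess hf j i

theorem cs_tr4 {f : E n → ℝ} (hf : CS f) :
    CS (fun x => (tau ψ x * hess f x * tau ψ x * hess f x).trace) := by
  simp only [Matrix.trace, Matrix.diag, Matrix.mul_apply]
  exact CS.sum _ fun i _ => CS.sum _ fun j _ => CS.mul_left (cs_hess hf j i)

theorem Ex_eq {V f : E n → ℝ} : Ex V f = (∫ x, f x * Real.exp (-V x)) / (∫ x, Real.exp (-V x)) := rfl

theorem stmtBoch150 : LIN.StmtBoch := by
  intro n ψ V c C M hN h f hf
  have hV : ContDiff ℝ 1 V := hN.smooth.of_le (by exact_mod_cast le_top)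
  have hVc : Continuous V := hV.continuous
  have hcs : CS f := CS.of_hasCompactSupport hf.2
  have hs : Sm f := hf.1
  have h0 := null_boch h hV hf
  have i1 : Integrable (fun x => (Lop ψ f x) ^ 2 * Real.exp (-V x)) := by
    apply int_of hVc
    · have := (ll_Lop h hs).lb.mul (ll_Lop h hs).lb
      simpa only [sq] using this
    · have : CS (fun x => Lop ψ f x * Lop ψ f x) := (cs_Lop hcs).mul_left
      simpa only [sq] using this
  have i2 : Integrable (fun x => (tau ψ x * hess f x * tau ψ x * hess f x).trace * Real.exp (-V x)) :=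
    int_of hVc (lb_tr4 h hs) (cs_tr4 hcs)
  have i3 : Integrable (fun x => (∑ b, Vale.Agent.P227.M.pd b f x * fld ψ f b x) * Real.exp (-V x)) :=
    int_of hVc (LB.sum _ fun b _ => (hs.pd b).ll.lb.mul (ll_fld' h hs b).lb)
      (CS.sum _ fun b _ => (cs_fld hcs b).mul_left)
  rw [Ex_eq, Ex_eq, Ex_eq, ← add_div]
  congr 1
  have h1 := h0.2
  have e : (fun x => ((Lop ψ f x) ^ 2 - (tau ψ x * hess f x * tau ψ x * hess f x).trace -
      ∑ b, Vale.Agent.P227.M.pd b f x * fld ψ f b x) * Real.exp (-V x)) =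
      fun x => (Lop ψ f x) ^ 2 * Real.exp (-V x) -
        (tau ψ x * hess f x * tau ψ x * hess f x).trace * Real.exp (-V x) -
        (∑ b, Vale.Agent.P227.M.pd b f x * fld ψ f b x) * Real.exp (-V x) := by
    funext x; ring
  have e1 : ∫ x, ((Lop ψ f x) ^ 2 * Real.exp (-V x) -
        (tau ψ x * hess f x * tau ψ x * hess f x).trace * Real.exp (-V x) -
        (∑ b, Vale.Agent.P227.M.pd b f x * fld ψ f b x) * Real.exp (-V x)) =
      (∫ x, ((Lop ψ f x) ^ 2 * Real.exp (-V x) -
        (tau ψ x * hess f x * tau ψ x * hess f x).trace * Real.exp (-V x))) -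
      ∫ x, (∑ b, Vale.Agent.P227.M.pd b f x * fld ψ f b x) * Real.exp (-V x) := integral_sub (i1.sub i2) i3
  rw [e, e1, integral_sub i1 i2] at h1
  linarith

end Vale.Agent.P227.M.K150
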