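import Mathlib
import Vale.Agent.P227.M.Defs
import Vale.Agent.P227.M.ID.LipMoll

/-! # P227/M/ID/K150: calculus of locally Lipschitz functions against `e^{-V}` (helper150) -/

set_option linter.all false
set_option autoImplicit false

open MeasureTheory Filter Topology Set Metric
open scoped NNReal ContDiff

namespace Vale.Agent.P227.M.K150

variable {n : ℕ}

/-- Lipschitz on every ball -/
def LL (f : E n → ℝ) : Prop :=
  ∀ R : ℝ, ∃ K : ℝ, 0 ≤ K ∧ ∀ x y : E n, ‖x‖ ≤ R → ‖y‖ ≤ R → |f x - f y| ≤ K * ‖x - y‖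

/-- vanishes outside a ball -/
def CS (f : E n → ℝ) : Prop := ∃ R : ℝ, ∀ x : E n, R < ‖x‖ → f x = 0

/-- locally bounded and measurable -/
def LB (f : E n → ℝ) : Prop :=
  AEStronglyMeasurable f (volume : Measure (E n)) ∧ ∀ R : ℝ, ∃ C : ℝ, 0 ≤ C ∧ ∀ x : E n, ‖x‖ ≤ R → |f x| ≤ C

theorem LL.bdd {f : E n → ℝ} (h : LL f) (R : ℝ) : ∃ C : ℝ, 0 ≤ C ∧ ∀ x : E n, ‖x‖ ≤ R → |f x| ≤ C := by
  obtain ⟨K, hK, h1⟩ := h (max R 0)
  refine ⟨|f 0| + K * max R 0, by positivity, fun x hx => ?_⟩
  have h2 := h1 x 0 (hx.trans (le_max_left _ _)) (by simp)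
  have h3 : |f x| ≤ |f x - f 0| + |f 0| := by
    have := abs_add_le (f x - f 0) (f 0)
    simpa using this
  rw [sub_zero] at h2
  have h4 : K * ‖x‖ ≤ K * max R 0 := mul_le_mul_of_nonneg_left (hx.trans (le_max_left _ _)) hK
  linarith

theorem LL.continuous {f : E n → ℝ} (h : LL f) : Continuous f := by
  rw [continuous_iff_continuousAt]
  intro x
  obtain ⟨K, hK, h1⟩ := h (‖x‖ + 1)
  have h2 : Tendsto (fun y => K * ‖y - x‖) (𝓝 x) (𝓝 (K * ‖x - x‖)) := by
    apply Continuous.tendsto
    fun_prop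
  rw [sub_self, norm_zero, mul_zero] at h2
  rw [ContinuousAt, tendsto_iff_dist_tendsto_zero]
  refine squeeze_zero' (Eventually.of_forall fun y => dist_nonneg) ?_ h2
  filter_upwards [Metric.ball_mem_nhds x one_pos] with y hy
  rw [Real.dist_eq]
  apply h1 y x _ (by linarith)
  rw [Metric.mem_ball, dist_eq_norm] at hy
  have := norm_le_norm_add_norm_sub' y x
  rw [norm_sub_rev] at this
  linarith [norm_sub_rev x y]

theorem LL.lb {f : E n → ℝ} (h : LL f) : LB f :=
  ⟨h.continuous.aestronglyMeasurable, h.bdd⟩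

theorem LL.const (c : ℝ) : LL (fun _ : E n => c) := fun R => ⟨0, le_rfl, fun x y _ _ => by simp⟩

theorem LL.add {f g : E n → ℝ} (hf : LL f) (hg : LL g) : LL (fun x => f x + g x) := by
  intro R
  obtain ⟨K, hK, h1⟩ := hf R
  obtain ⟨L, hL, h2⟩ := hg R
  refine ⟨K + L, by positivity, fun x y hx hy => ?_⟩
  have e : f x + g x - (f y + g y) = (f x - f y) + (g x - g y) := by ring
  rw [e]
  refine (abs_add_le _ _).trans ?_
  have := h1 x y hx hy
  have := h2 x y hx hy
  linarith

theorem LL.neg {f : E n → ℝ} (hf : LL f) : LL (fun x => - f x) := by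
  intro R
  obtain ⟨K, hK, h1⟩ := hf R
  refine ⟨K, hK, fun x y hx hy => ?_⟩
  have e : - f x - - f y = -(f x - f y) := by ring
  rw [e, abs_neg]
  exact h1 x y hx hy

theorem LL.sub {f g : E n → ℝ} (hf : LL f) (hg : LL g) : LL (fun x => f x - g x) := by
  have := hf.add hg.neg
  simpa only [sub_eq_add_neg] using this

theorem LL.mul {f g : E n → ℝ} (hf : LL f) (hg : LL g) : LL (fun x => f x * g x) := by
  intro R
  obtain ⟨K, hK, h1⟩ := hf R
  obtain ⟨L, hL, h2⟩ := hg R
  obtain ⟨A, hA, h3⟩ := hf.bdd R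
  obtain ⟨B, hB, h4⟩ := hg.bdd R
  refine ⟨A * L + K * B, by positivity, fun x y hx hy => ?_⟩
  have e : f x * g x - f y * g y = f x * (g x - g y) + (f x - f y) * g y := by ring
  rw [e]
  refine (abs_add_le _ _).trans ?_
  rw [abs_mul, abs_mul]
  have a1 : |f x| * |g x - g y| ≤ A * (L * ‖x - y‖) :=
    mul_le_mul (h3 x hx) (h2 x y hx hy) (abs_nonneg _) hA
  have a2 : |f x - f y| * |g y| ≤ (K * ‖x - y‖) * B :=
    mul_le_mul (h1 x y hx hy) (h4 y hy) (abs_nonneg _) (by positivity)
  nlinarith

theorem LL.sum {ι : Type*} (s : Finset ι) {f : ι → E n → ℝ} (hf : ∀ i ∈ s, LL (f i)) :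
    LL (fun x => ∑ i ∈ s, f i x) := by
  classical
  induction s using Finset.induction_on with
  | empty => simpa using LL.const (n := n) 0
  | insert a s ha ih =>
    simp only [Finset.sum_insert ha]
    exact (hf a (Finset.mem_insert_self _ _)).add
      (ih fun i hi => hf i (Finset.mem_insert_of_mem hi))

theorem LL.of_contDiff {f : E n → ℝ} (hf : ContDiff ℝ 1 f) : LL f := by
  intro R
  have hc : Continuous (fderiv ℝ f) := hf.continuous_fderiv (by norm_num)
  obtain ⟨K, hK⟩ := (isCompact_closedBall (0 : E n) R).exists_bound_of_continuousOn hc.continuousOn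
  refine ⟨max K 0, le_max_right _ _, fun x y hx hy => ?_⟩
  have h1 := (convex_closedBall (0 : E n) R).norm_image_sub_le_of_norm_fderiv_le (𝕜 := ℝ) (f := f)
    (C := max K 0) (fun z _ => hf.differentiable (by norm_num) z)
    (fun z hz => (hK z hz).trans (le_max_left _ _))
    (by simpa using hy : y ∈ closedBall (0 : E n) R) (by simpa using hx : x ∈ closedBall (0 : E n) R)
  rw [Real.norm_eq_abs] at h1
  exact h1

theorem LL.of_lip {f : E n → ℝ} {K : ℝ} (hK : 0 ≤ K) (h : ∀ x y, |f x - f y| ≤ K * ‖x - y‖) : LL f :=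
  fun _ => ⟨K, hK, fun x y _ _ => h x y⟩

theorem CS.mul_left {f g : E n → ℝ} (hg : CS g) : CS (fun x => f x * g x) := by
  obtain ⟨R, h⟩ := hg
  exact ⟨R, fun x hx => by simp [h x hx]⟩

theorem CS.mul_right {f g : E n → ℝ} (hf : CS f) : CS (fun x => f x * g x) := by
  obtain ⟨R, h⟩ := hf
  exact ⟨R, fun x hx => by simp [h x hx]⟩

theorem CS.add {f g : E n → ℝ} (hf : CS f) (hg : CS g) : CS (fun x => f x + g x) := by
  obtain ⟨R, h⟩ := hf
  obtain ⟨S, k⟩ := hg
  exact ⟨max R S, fun x hx => by
    show f x + g x = 0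
    rw [h x (lt_of_le_of_lt (le_max_left _ _) hx), k x (lt_of_le_of_lt (le_max_right _ _) hx), add_zero]⟩

theorem CS.sub {f g : E n → ℝ} (hf : CS f) (hg : CS g) : CS (fun x => f x - g x) := by
  obtain ⟨R, h⟩ := hf
  obtain ⟨S, k⟩ := hg
  exact ⟨max R S, fun x hx => by
    show f x - g x = 0
    rw [h x (lt_of_le_of_lt (le_max_left _ _) hx), k x (lt_of_le_of_lt (le_max_right _ _) hx), sub_zero]⟩

theorem CS.sum {ι : Type*} (s : Finset ι) {f : ι → E n → ℝ} (hf : ∀ i ∈ s, CS (f i)) :
    CS (fun x => ∑ i ∈ s, f i x) := by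
  classical
  induction s using Finset.induction_on with
  | empty => exact ⟨0, fun x _ => by simp⟩
  | insert a s ha ih =>
    simp only [Finset.sum_insert ha]
    exact (hf a (Finset.mem_insert_self _ _)).add
      (ih fun i hi => hf i (Finset.mem_insert_of_mem hi))

theorem CS.pd {f : E n → ℝ} (hf : CS f) (i : Fin n) : CS (pd i f) := by
  obtain ⟨R, h⟩ := hf
  refine ⟨R, fun x hx => ?_⟩
  have h1 : f =ᶠ[𝓝 x] fun _ => (0 : ℝ) := by
    have : {y : E n | R < ‖y‖} ∈ 𝓝 x := (isOpen_lt continuous_const continuous_norm).mem_nhds hx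
    filter_upwards [this] with y hy using h y hy
  simp only [Vale.Agent.P227.M.pd]
  rw [h1.fderiv_eq]
  simp

theorem CS.of_hasCompactSupport {f : E n → ℝ} (hf : HasCompactSupport f) : CS f := by
  obtain ⟨R, hR⟩ := hf.isCompact.isBounded.exists_norm_le
  refine ⟨R, fun x hx => ?_⟩
  by_contra h
  exact absurd (hR x (subset_tsupport f (Function.mem_support.mpr h))) (not_le.mpr hx)

theorem CS.hasCompactSupport {f : E n → ℝ} (hf : CS f) : HasCompactSupport f := by
  obtain ⟨R, h⟩ := hf
  refine HasCompactSupport.of_support_subset_isCompact (isCompact_closedBall (0 : E n) R) ?_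
  intro x hx
  rw [mem_closedBall, dist_zero_right]
  by_contra hc
  exact hx (h x (not_le.mp hc))

theorem LB.mul {f g : E n → ℝ} (hf : LB f) (hg : LB g) : LB (fun x => f x * g x) := by
  refine ⟨hf.1.mul hg.1, fun R => ?_⟩
  obtain ⟨A, hA, h3⟩ := hf.2 R
  obtain ⟨B, hB, h4⟩ := hg.2 R
  refine ⟨A * B, by positivity, fun x hx => ?_⟩
  rw [abs_mul]
  exact mul_le_mul (h3 x hx) (h4 x hx) (abs_nonneg _) hA

theorem LB.add {f g : E n → ℝ} (hf : LB f) (hg : LB g) : LB (fun x => f x + g x) := by
  refine ⟨hf.1.add hg.1, fun R => ?_⟩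
  obtain ⟨A, hA, h3⟩ := hf.2 R
  obtain ⟨B, hB, h4⟩ := hg.2 R
  refine ⟨A + B, by positivity, fun x hx => (abs_add_le _ _).trans (add_le_add (h3 x hx) (h4 x hx))⟩

theorem LB.neg {f : E n → ℝ} (hf : LB f) : LB (fun x => - f x) := by
  refine ⟨hf.1.neg, fun R => ?_⟩
  obtain ⟨A, hA, h3⟩ := hf.2 R
  exact ⟨A, hA, fun x hx => by rw [abs_neg]; exact h3 x hx⟩

theorem LB.sub {f g : E n → ℝ} (hf : LB f) (hg : LB g) : LB (fun x => f x - g x) := by
  simpa only [sub_eq_add_neg] using hf.add hg.neg

theorem LB.sum {ι : Type*} (s : Finset ι) {f : ι → E n → ℝ} (hf : ∀ i ∈ s, LB (f i)) :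
    LB (fun x => ∑ i ∈ s, f i x) := by
  classical
  induction s using Finset.induction_on with
  | empty => simpa using (LL.const (n := n) 0).lb
  | insert a s ha ih =>
    simp only [Finset.sum_insert ha]
    exact (hf a (Finset.mem_insert_self _ _)).add
      (ih fun i hi => hf i (Finset.mem_insert_of_mem hi))

theorem norm_ei (i : Fin n) : ‖(ei i : E n)‖ = 1 := by simp [ei]

theorem abs_pd_le {f : E n → ℝ} (x : E n) (i : Fin n) : |pd i f x| ≤ ‖fderiv ℝ f x‖ := by
  have := (fderiv ℝ f x).le_opNorm (ei i)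
  rw [norm_ei, mul_one] at this
  exact this

theorem LL.pd_bdd {f : E n → ℝ} (h : LL f) (i : Fin n) (R : ℝ) :
    ∃ C : ℝ, 0 ≤ C ∧ ∀ x : E n, ‖x‖ ≤ R → |pd i f x| ≤ C := by
  obtain ⟨K, hK, h1⟩ := h (R + 1)
  refine ⟨K, hK, fun x hx => (abs_pd_le x i).trans ?_⟩
  refine norm_fderiv_le_of_lip' ℝ hK ?_
  filter_upwards [Metric.ball_mem_nhds x one_pos] with y hy
  rw [Real.norm_eq_abs]
  apply h1 y x _ (by linarith)
  rw [Metric.mem_ball, dist_eq_norm] at hy
  have := norm_le_norm_add_norm_sub' y x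
  linarith [norm_sub_rev x y]

theorem LL.pd_lb {f : E n → ℝ} (h : LL f) (i : Fin n) : LB (pd i f) :=
  ⟨(measurable_fderiv_apply_const ℝ f (ei i)).aestronglyMeasurable, h.pd_bdd i⟩

/-- locally Lipschitz with compact support is Lipschitz -/
theorem lip_of {f : E n → ℝ} (h : LL f) (hs : CS f) : ∃ K : ℝ≥0, LipschitzWith K f := by
  obtain ⟨R, hR⟩ := hs
  obtain ⟨K, hK, h1⟩ := h (R + 1)
  obtain ⟨B, hB, h2⟩ := h.bdd (R + 1)
  refine ⟨(K + B).toNNReal, LipschitzWith.of_dist_le_mul fun x y => ?_⟩
  rw [Real.dist_eq, dist_eq_norm, Real.coe_toNNReal _ (by positivity)]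
  have key : ∀ x y : E n, ‖x‖ ≤ ‖y‖ → |f x - f y| ≤ (K + B) * ‖x - y‖ := by
    intro x y hxy
    by_cases hy : ‖y‖ ≤ R + 1
    · refine (h1 x y (hxy.trans hy) hy).trans ?_
      exact mul_le_mul_of_nonneg_right (by linarith) (norm_nonneg _)
    · push_neg at hy
      rw [hR y (by linarith), sub_zero]
      by_cases hx : R < ‖x‖
      · rw [hR x hx, abs_zero]
        positivity
      · push_neg at hx
        have h3 := h2 x (by linarith)
        have h4 : 1 ≤ ‖x - y‖ := by
          have := norm_sub_norm_le y x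
          rw [norm_sub_rev] at this
          linarith
        nlinarith
  rcases le_total ‖x‖ ‖y‖ with hxy | hxy
  · exact key x y hxy
  · have := key y x hxy
    rwa [abs_sub_comm, norm_sub_rev] at this

/-- locally bounded with compact support is integrable -/
theorem integrable_of {f : E n → ℝ} (h : LB f) (hs : CS f) : Integrable f := by
  obtain ⟨R, hR⟩ := hs
  obtain ⟨C, hC, h1⟩ := h.2 R
  have h2 : Integrable (fun x : E n => (closedBall (0 : E n) R).indicator (fun _ => C) x) := by
    rw [integrable_indicator_iff measurableSet_closedBall]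
    exact integrableOn_const (measure_closedBall_lt_top).ne
  refine h2.mono' h.1 (Eventually.of_forall fun x => ?_)
  by_cases hx : ‖x‖ ≤ R
  · rw [indicator_of_mem (by simpa using hx)]
    exact h1 x hx
  · rw [hR x (not_le.mp hx), norm_zero]
    exact indicator_nonneg (fun _ _ => hC) x

theorem LB.exp_mul {V f : E n → ℝ} (hV : Continuous V) (h : LB f) : LB (fun x => f x * Real.exp (-V x)) := by
  refine h.mul ⟨(Real.continuous_exp.comp hV.neg).aestronglyMeasurable, fun R => ?_⟩
  obtain ⟨C, hC⟩ := (isCompact_closedBall (0 : E n) R).exists_bound_of_continuousOn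
    (Real.continuous_exp.comp hV.neg).continuousOn
  refine ⟨max C 0, le_max_right _ _, fun x hx => ?_⟩
  have := hC x (by simpa using hx)
  rw [Real.norm_eq_abs] at this
  exact this.trans (le_max_left _ _)

/-- `∫ g e^{-V} = 0` with integrability -/
def Null (V g : E n → ℝ) : Prop :=
  Integrable (fun x => g x * Real.exp (-V x)) ∧ ∫ x, g x * Real.exp (-V x) = 0

theorem Null.add {V f g : E n → ℝ} (hf : Null V f) (hg : Null V g) : Null V (fun x => f x + g x) := by
  have e : (fun x => (f x + g x) * Real.exp (-V x)) =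
      fun x => f x * Real.exp (-V x) + g x * Real.exp (-V x) := by funext x; ring
  unfold Null
  rw [e]
  exact ⟨hf.1.add hg.1, by rw [integral_add hf.1 hg.1, hf.2, hg.2, add_zero]⟩

theorem Null.const_mul {V f : E n → ℝ} (hf : Null V f) (c : ℝ) : Null V (fun x => c * f x) := by
  have e : (fun x => (c * f x) * Real.exp (-V x)) =
      fun x => c * (f x * Real.exp (-V x)) := by funext x; ring
  unfold Null
  rw [e]
  exact ⟨hf.1.const_mul c, by rw [integral_const_mul, hf.2, mul_zero]⟩

theorem Null.neg {V f : E n → ℝ} (hf : Null V f) : Null V (fun x => - f x) := by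
  have := hf.const_mul (-1)
  simpa only [neg_mul, one_mul] using this

theorem Null.sub {V f g : E n → ℝ} (hf : Null V f) (hg : Null V g) : Null V (fun x => f x - g x) := by
  have := hf.add hg.neg
  simpa only [sub_eq_add_neg] using this

theorem Null.sum {ι : Type*} (s : Finset ι) {V : E n → ℝ} {f : ι → E n → ℝ} (hf : ∀ i ∈ s, Null V (f i)) :
    Null V (fun x => ∑ i ∈ s, f i x) := by
  classical
  induction s using Finset.induction_on with
  | empty => constructor <;> simp
  | insert a s ha ih =>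
    simp only [Finset.sum_insert ha]
    exact (hf a (Finset.mem_insert_self _ _)).add
      (ih fun i hi => hf i (Finset.mem_insert_of_mem hi))

theorem Null.congr {V f g : E n → ℝ} (hf : Null V f) (h : ∀ᵐ x, f x = g x) : Null V g := by
  have h1 : (fun x => f x * Real.exp (-V x)) =ᵐ[volume] fun x => g x * Real.exp (-V x) := by
    filter_upwards [h] with x hx
    rw [hx]
  exact ⟨hf.1.congr h1, by rw [← integral_congr_ae h1, hf.2]⟩

/-- the exact divergence terms have zero mean -/
theorem null_DV {V g : E n → ℝ} (hV : ContDiff ℝ 1 V) (hg : LL g) (hs : CS g) (c : Fin n) :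
    Null V (fun x => pd c g x - pd c V x * g x) := by
  have he : ContDiff ℝ 1 (fun x => Real.exp (-V x)) := Real.contDiff_exp.comp hV.neg
  have hh : LL (fun x => g x * Real.exp (-V x)) := hg.mul (LL.of_contDiff he)
  have hhs : CS (fun x => g x * Real.exp (-V x)) := hs.mul_right
  obtain ⟨K, hK⟩ := lip_of hg hs
  obtain ⟨L, hL⟩ := lip_of hh hhs
  have hVc : Continuous V := hV.continuous
  have hLV : LB (pd c V) := (LL.of_contDiff hV).pd_lb c
  have hint : Integrable (fun x => (pd c g x - pd c V x * g x) * Real.exp (-V x)) := by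
    apply integrable_of
    · exact LB.exp_mul hVc ((hg.pd_lb c).sub (hLV.mul hg.lb))
    · exact CS.mul_right ((hs.pd c).sub hs.mul_left)
  refine ⟨hint, ?_⟩
  have h1 := LipschitzWith.integral_lineDeriv_mul_eq (μ := (volume : Measure (E n)))
    (LipschitzWith.const (1 : ℝ)) hL hhs.hasCompactSupport (-(ei c : E n))
  have h2 : ∀ x : E n, lineDeriv ℝ (fun _ : E n => (1 : ℝ)) x (-(ei c)) = 0 := fun x => by
    simp [lineDeriv]
  simp only [h2, zero_mul, integral_zero, neg_neg, mul_one] at h1
  rw [h1]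
  refine integral_congr_ae ?_
  filter_upwards [hK.ae_differentiableAt] with x hx
  have hgx : HasFDerivAt g (fderiv ℝ g x) x := hx.hasFDerivAt
  have hVx : HasFDerivAt V (fderiv ℝ V x) x := (hV.differentiable (by norm_num) x).hasFDerivAt
  have hex : HasFDerivAt (fun x => Real.exp (-V x)) (Real.exp (-V x) • (-(fderiv ℝ V x))) x :=
    hVx.neg.exp
  have hp := hgx.mul hex
  have hp' : HasFDerivAt (fun x => g x * Real.exp (-V x))
    (g x • Real.exp (-V x) • (-(fderiv ℝ V x)) + Real.exp (-V x) • fderiv ℝ g x) x := hp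
  rw [hp'.differentiableAt.lineDeriv_eq_fderiv, hp'.fderiv]
  simp only [Vale.Agent.P227.M.pd, ContinuousLinearMap.add_apply, ContinuousLinearMap.smul_apply,
    ContinuousLinearMap.neg_apply, smul_eq_mul]
  ring

/-- density: an exact first order identity for test functions extends to Lipschitz functions -/
theorem dens {V : E n → ℝ} (hV : Continuous V) {β : Fin n → E n → ℝ} {γ : E n → ℝ}
    (hβ : ∀ j, LB (β j)) (hγ : LB γ)
    (H : ∀ a : E n → ℝ, Test a → Null V (fun x => (∑ j, β j x * pd j a x) - γ x * a x))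
    {a : E n → ℝ} (ha : LL a) (hs : CS a) :
    Null V (fun x => (∑ j, β j x * pd j a x) - γ x * a x) := by
  obtain ⟨K, hK⟩ := lip_of ha hs
  obtain ⟨R, hR⟩ := hs
  obtain ⟨B, hB, hB'⟩ := ha.bdd R
  obtain ⟨f, f1, f2, f3, f4, f5, f6⟩ := LipMoll.exists_approx (volume : Measure (E n)) hK hR
  have hsf : ∀ k, CS (f k) := fun k => ⟨R + 2, f3 k⟩
  have hint : Integrable (fun x => ((∑ j, β j x * pd j a x) - γ x * a x) * Real.exp (-V x)) := by
    apply integrable_of
    · exact LB.exp_mul hV ((LB.sum _ fun j _ => (hβ j).mul (ha.pd_lb j)).sub (hγ.mul ha.lb))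
    · exact CS.mul_right ((CS.sum _ fun j _ => (CS.pd ⟨R, hR⟩ j).mul_left).sub
        (CS.mul_left ⟨R, hR⟩))
  refine ⟨hint, ?_⟩
  have hN : ∀ k, ∫ x, ((∑ j, β j x * pd j (f k) x) - γ x * f k x) * Real.exp (-V x) = 0 :=
    fun k => (H (f k) ⟨f1 k, (hsf k).hasCompactSupport⟩).2
  choose Cβ hCβ hCβ' using fun j => (hβ j).2 (R + 2)
  obtain ⟨Cγ, hCγ, hCγ'⟩ := hγ.2 (R + 2)
  obtain ⟨Ce, hCe⟩ := (isCompact_closedBall (0 : E n) (R + 2)).exists_bound_of_continuousOn
    (Real.continuous_exp.comp hV.neg).continuousOn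
  have hlim : Tendsto (fun k => ∫ x, ((∑ j, β j x * pd j (f k) x) - γ x * f k x) * Real.exp (-V x))
      atTop (𝓝 (∫ x, ((∑ j, β j x * pd j a x) - γ x * a x) * Real.exp (-V x))) := by
    refine tendsto_integral_of_dominated_convergence
      (fun x => (closedBall (0 : E n) (R + 2)).indicator
        (fun _ => ((∑ j, Cβ j * K) + Cγ * (B + 2 * K)) * max Ce 0) x) ?_ ?_ ?_ ?_
    · intro k
      have hll : LL (f k) := LL.of_contDiff ((f1 k).of_le (by exact_mod_cast le_top))
      exact (LB.exp_mul hV ((LB.sum _ fun j _ => (hβ j).mul (hll.pd_lb j)).sub (hγ.mul hll.lb))).1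
    · rw [integrable_indicator_iff measurableSet_closedBall]
      exact integrableOn_const (measure_closedBall_lt_top).ne
    · intro k
      refine Eventually.of_forall fun x => ?_
      by_cases hx : ‖x‖ ≤ R + 2
      · rw [indicator_of_mem (by simpa using hx)]
        rw [norm_mul]
        have e1 : ‖Real.exp (-V x)‖ ≤ max Ce 0 := (hCe x (by simpa using hx)).trans (le_max_left _ _)
        refine mul_le_mul ?_ e1 (norm_nonneg _) ?_
        · refine (norm_sub_le _ _).trans (add_le_add ?_ ?_)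
          · refine (norm_sum_le _ _).trans (Finset.sum_le_sum fun j _ => ?_)
            rw [norm_mul]
            refine mul_le_mul (hCβ' j x hx) ((abs_pd_le x j).trans (f5 k x)) (norm_nonneg _) (hCβ j)
          · rw [norm_mul]
            refine mul_le_mul (hCγ' x hx) ?_ (norm_nonneg _) hCγ
            have h5 := f4 k x
            rw [dist_eq_norm] at h5
            have h6 : |a x| ≤ B := by
              by_cases h7 : ‖x‖ ≤ R
              · exact hB' x h7
              · rw [hR x (not_le.mp h7), abs_zero]; exact hB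
            have h8 : ‖f k x‖ ≤ ‖a x‖ + ‖f k x - a x‖ := by
              have := norm_add_le (a x) (f k x - a x)
              simpa using this
            have h9 : (K : ℝ) * (2 / ((k : ℝ) + 1)) ≤ K * 2 := by
              refine mul_le_mul_of_nonneg_left ?_ K.coe_nonneg
              rw [div_le_iff₀ (by positivity)]
              have : (0 : ℝ) ≤ k := Nat.cast_nonneg k
              nlinarith
            rw [Real.norm_eq_abs (a x)] at h8
            linarith
        · have : 0 ≤ ∑ j, Cβ j * (K : ℝ) := Finset.sum_nonneg fun j _ => mul_nonneg (hCβ j) K.coe_nonneg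
          positivity
      · have hx' : R + 2 < ‖x‖ := not_le.mp hx
        have h1 : ∀ j, pd j (f k) x = 0 := by
          intro j
          have h1 : f k =ᶠ[𝓝 x] fun _ => (0 : ℝ) := by
            have : {y : E n | R + 2 < ‖y‖} ∈ 𝓝 x :=
              (isOpen_lt continuous_const continuous_norm).mem_nhds hx'
            filter_upwards [this] with y hy using f3 k y hy
          simp only [Vale.Agent.P227.M.pd]
          rw [h1.fderiv_eq]
          simp
        simp only [h1, f3 k x hx', mul_zero, Finset.sum_const_zero, sub_zero, zero_mul, norm_zero]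
        exact indicator_nonneg (fun _ _ => by
          have : 0 ≤ ∑ j, Cβ j * (K : ℝ) := Finset.sum_nonneg fun j _ => mul_nonneg (hCβ j) K.coe_nonneg
          positivity) x
    · filter_upwards [f6] with x hx
      refine Tendsto.mul_const _ (Tendsto.sub (tendsto_finset_sum _ fun j _ => ?_) ?_)
      · exact Tendsto.const_mul _ ((ContinuousLinearMap.apply ℝ ℝ (ei j : E n)).continuous.tendsto _ |>.comp hx)
      · refine Tendsto.const_mul _ ?_
        rw [tendsto_iff_dist_tendsto_zero]
        refine squeeze_zero (fun k => dist_nonneg) (fun k => f4 k x) ?_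
        have h3 : Tendsto (fun k : ℕ => (K : ℝ) * (2 * (1 / ((k : ℝ) + 1)))) atTop (𝓝 (K * (2 * 0))) :=
          (tendsto_one_div_add_atTop_nhds_zero_nat.const_mul 2).const_mul _
        rw [mul_zero, mul_zero] at h3
        refine h3.congr fun k => ?_
        ring
  simp only [hN] at hlim
  exact (tendsto_nhds_unique hlim tendsto_const_nhds)

end Vale.Agent.P227.M.K150
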