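import Vale.Agent.P227.M.ID.K150.Cal
import Vale.Agent.P227.M.LIN.AE

/-! # P227/M/ID/K150: pointwise rules at good points; exact terms (helper150) -/

set_option linter.all false
set_option autoImplicit false

open MeasureTheory Filter Topology Set Metric
open scoped NNReal ContDiff

namespace Vale.Agent.P227.M.K150

open Vale.Agent.P227.M.AE (Good ae_good tau_symm tau_lip S3 S3_symm12 S3_symm23 stein_ae pd_add pd_sub
  pd_mul pd_sum pd_coord diff_coord tau_bound)

variable {n : ℕ} {ψ V : E n → ℝ} {c C M : ℝ}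

/-- smooth -/
abbrev Sm (f : E n → ℝ) : Prop := ContDiff ℝ (⊤ : ℕ∞) f

theorem Sm.pd {f : E n → ℝ} (hf : Sm f) (i : Fin n) : Sm (pd i f) := by
  have h1 : ContDiff ℝ (⊤ : ℕ∞) (fderiv ℝ f) := hf.fderiv_right (by simp)
  exact h1.clm_apply contDiff_const

theorem Sm.diff {f : E n → ℝ} (hf : Sm f) (x : E n) : DifferentiableAt ℝ f x :=
  (hf.differentiable (by simp)) x

theorem Sm.ll {f : E n → ℝ} (hf : Sm f) : LL f := LL.of_contDiff (hf.of_le (by exact_mod_cast le_top))

theorem Sm.comm {f : E n → ℝ} (hf : Sm f) (i j : Fin n) (x : E n) :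
    Vale.Agent.P227.M.pd i (Vale.Agent.P227.M.pd j f) x = Vale.Agent.P227.M.pd j (Vale.Agent.P227.M.pd i f) x := by
  have h2 : ContDiff ℝ 2 f := hf.of_le (by
    have : ((2 : ℕ∞) : WithTop ℕ∞) ≤ ((⊤ : ℕ∞) : WithTop ℕ∞) := by exact_mod_cast (le_top : (2 : ℕ∞) ≤ ⊤)
    simpa using this)
  exact AE.hess_symm h2 x i j

theorem Test.pd {f : E n → ℝ} (hf : Test f) (i : Fin n) : Test (Vale.Agent.P227.M.pd i f) :=
  ⟨Sm.pd hf.1 i, hf.2.fderiv_apply (𝕜 := ℝ) (ei i)⟩

theorem ll_tau (h : MM ψ V c C M) (i j : Fin n) : LL (fun x => tau ψ x i j) := by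
  obtain ⟨K, hK⟩ := tau_lip h
  exact LL.of_lip K.coe_nonneg fun x y => by
    have := (hK i j).dist_le_mul x y
    rwa [Real.dist_eq, dist_eq_norm] at this

theorem ll_coord (i : Fin n) : LL (fun x : E n => x i) := by
  apply LL.of_contDiff
  exact (EuclideanSpace.proj i : E n →L[ℝ] ℝ).contDiff

theorem ll_fld (h : MM ψ V c C M) {g : E n → ℝ} (hg : ∀ i, LL (Vale.Agent.P227.M.pd i g)) (b : Fin n) : LL (fld ψ g b) := by
  unfold fld
  exact LL.sum _ fun i _ => (ll_tau h b i).mul (hg i)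

theorem ll_fld' (h : MM ψ V c C M) {g : E n → ℝ} (hg : Sm g) (b : Fin n) : LL (fld ψ g b) :=
  ll_fld h (fun i => (hg.pd i).ll) b

theorem cs_fld {g : E n → ℝ} (hg : CS g) (b : Fin n) : CS (fld ψ g b) := by
  unfold fld
  exact CS.sum _ fun i _ => (hg.pd i).mul_left

theorem lb_fld (h : MM ψ V c C M) {g : E n → ℝ} (hg : LL g) (b : Fin n) : LB (fld ψ g b) := by
  unfold fld
  exact LB.sum _ fun i _ => (ll_tau h b i).lb.mul (hg.pd_lb i)

theorem ll_Lop (h : MM ψ V c C M) {g : E n → ℝ} (hg : Sm g) : LL (Lop ψ g) := by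
  unfold Lop
  refine LL.sub (LL.sum _ fun i _ => LL.sum _ fun j _ => (ll_tau h i j).mul ?_)
    (LL.sum _ fun i _ => (ll_coord i).mul (hg.pd i).ll)
  exact ((hg.pd j).pd i).ll

theorem cs_Lop {g : E n → ℝ} (hg : CS g) : CS (Lop ψ g) := by
  unfold Lop
  refine CS.sub (CS.sum _ fun i _ => CS.sum _ fun j _ => CS.mul_left ?_)
    (CS.sum _ fun i _ => (hg.pd i).mul_left)
  exact (hg.pd j).pd i

/-- a.e. differentiability of locally Lipschitz functions -/
theorem LL.ae_diff {f : E n → ℝ} (hf : LL f) : ∀ᵐ x, DifferentiableAt ℝ f x := by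
  have h1 : ∀ k : ℕ, ∀ᵐ x : E n, x ∈ ball (0 : E n) k → DifferentiableAt ℝ f x := by
    intro k
    obtain ⟨K, hK, hK'⟩ := hf k
    have h2 : LipschitzOnWith K.toNNReal f (ball (0 : E n) k) := by
      refine LipschitzOnWith.of_dist_le_mul fun x hx y hy => ?_
      rw [Real.dist_eq, dist_eq_norm, Real.coe_toNNReal _ hK]
      rw [mem_ball_zero_iff] at hx hy
      exact hK' x y hx.le hy.le
    filter_upwards [h2.ae_differentiableWithinAt_of_mem (μ := (volume : Measure (E n)))] with x hx hxk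
    exact (hx hxk).differentiableAt (isOpen_ball.mem_nhds hxk)
  filter_upwards [ae_all_iff.2 h1] with x hx
  obtain ⟨k, hk⟩ := exists_nat_gt ‖x‖
  exact hx k (by rwa [mem_ball_zero_iff])

/-- derivative of `D_b g`, `g` smooth -/
theorem pd_fld {x : E n} (hx : Good ψ x) {g : E n → ℝ} (hg : ∀ i, DifferentiableAt ℝ (Vale.Agent.P227.M.pd i g) x)
    (d b : Fin n) :
    Vale.Agent.P227.M.pd d (fld ψ g b) x = ∑ e, (Vale.Agent.P227.M.pd d (fun z => tau ψ z b e) x * Vale.Agent.P227.M.pd e g x +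
      tau ψ x b e * Vale.Agent.P227.M.pd d (Vale.Agent.P227.M.pd e g) x) := by
  unfold fld
  rw [pd_sum _ fun e _ => (hx.2 b e).fun_mul (hg e)]
  exact Finset.sum_congr rfl fun e _ => by rw [pd_mul (hx.2 b e) (hg e)]

theorem diff_fld {x : E n} (hx : Good ψ x) {g : E n → ℝ} (hg : ∀ i, DifferentiableAt ℝ (Vale.Agent.P227.M.pd i g) x)
    (b : Fin n) : DifferentiableAt ℝ (fld ψ g b) x := by
  unfold fld
  exact DifferentiableAt.fun_sum fun e _ => (hx.2 b e).fun_mul (hg e)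

theorem diff_Lop {x : E n} (hx : Good ψ x) {g : E n → ℝ} (hg : Sm g) :
    DifferentiableAt ℝ (Lop ψ g) x := by
  unfold Lop
  refine DifferentiableAt.fun_sub (DifferentiableAt.fun_sum fun i _ => DifferentiableAt.fun_sum fun j _ =>
    (hx.2 i j).fun_mul ?_) (DifferentiableAt.fun_sum fun i _ => (diff_coord i x).fun_mul ((hg.pd i).diff x))
  exact ((hg.pd j).pd i).diff x

/-- `div_μ (τ ∇g) = L g` -/
theorem div_fld (h : MM ψ V c C M) {x : E n} (hx : Good ψ x) {g : E n → ℝ} (hg : Sm g) :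
    ∑ b, (Vale.Agent.P227.M.pd b (fld ψ g b) x - Vale.Agent.P227.M.pd b V x * fld ψ g b x) = Lop ψ g x := by
  have h1 : ∀ b, Vale.Agent.P227.M.pd b (fld ψ g b) x - Vale.Agent.P227.M.pd b V x * fld ψ g b x =
      ∑ e, (tau ψ x b e * hess g x b e -
        (Vale.Agent.P227.M.pd b V x * tau ψ x e b - Vale.Agent.P227.M.pd b (fun z => tau ψ z e b) x) * Vale.Agent.P227.M.pd e g x) := by
    intro b
    rw [pd_fld hx fun i => (hg.pd i).diff x]
    unfold fld
    rw [Finset.mul_sum, ← Finset.sum_sub_distrib]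
    refine Finset.sum_congr rfl fun e _ => ?_
    have h2 : (fun z => tau ψ z b e) = fun z => tau ψ z e b := by
      funext z; exact tau_symm h z b e
    rw [h2, tau_symm h x e b]
    simp only [hess]
    ring
  simp only [h1]
  simp only [Finset.sum_sub_distrib]
  unfold Lop
  congr 1
  rw [Finset.sum_comm]
  refine Finset.sum_congr rfl fun e _ => ?_
  rw [← Finset.sum_mul, stein_ae h hx e]

/-- `∂_a L g = L ∂_a g + (∂_a τ_ij) g_ij - ∂_a g` -/
theorem pd_Lop (h : MM ψ V c C M) {x : E n} (hx : Good ψ x) {g : E n → ℝ} (hg : Sm g) (a : Fin n) :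
    Vale.Agent.P227.M.pd a (Lop ψ g) x = Lop ψ (Vale.Agent.P227.M.pd a g) x +
      (∑ i, ∑ j, Vale.Agent.P227.M.pd a (fun z => tau ψ z i j) x * hess g x i j) - Vale.Agent.P227.M.pd a g x := by
  have d1 : ∀ i j, DifferentiableAt ℝ (fun z => hess g z i j) x := fun i j => ((hg.pd j).pd i).diff x
  unfold Lop
  rw [pd_sub (DifferentiableAt.fun_sum fun i _ => DifferentiableAt.fun_sum fun j _ =>
    (hx.2 i j).fun_mul (d1 i j)) (DifferentiableAt.fun_sum fun i _ => (diff_coord i x).fun_mul ((hg.pd i).diff x))]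
  rw [pd_sum _ fun i _ => DifferentiableAt.fun_sum fun j _ => (hx.2 i j).fun_mul (d1 i j)]
  rw [pd_sum _ fun i _ => (diff_coord i x).fun_mul ((hg.pd i).diff x)]
  have e1 : ∀ i, Vale.Agent.P227.M.pd a (fun z => ∑ j, tau ψ z i j * hess g z i j) x =
      ∑ j, (Vale.Agent.P227.M.pd a (fun z => tau ψ z i j) x * hess g x i j + tau ψ x i j * hess (Vale.Agent.P227.M.pd a g) x i j) := by
    intro i
    rw [pd_sum _ fun j _ => (hx.2 i j).fun_mul (d1 i j)]
    refine Finset.sum_congr rfl fun j _ => ?_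
    rw [pd_mul (hx.2 i j) (d1 i j)]
    congr 1
    congr 1
    show Vale.Agent.P227.M.pd a (Vale.Agent.P227.M.pd i (Vale.Agent.P227.M.pd j g)) x = Vale.Agent.P227.M.pd i (Vale.Agent.P227.M.pd j (Vale.Agent.P227.M.pd a g)) x
    rw [(hg.pd j).comm a i x]
    congr 1
    funext z
    exact hg.comm a j z
  have e2 : ∀ i, Vale.Agent.P227.M.pd a (fun z : E n => z i * Vale.Agent.P227.M.pd i g z) x =
      (if i = a then 1 else 0) * Vale.Agent.P227.M.pd i g x + x i * Vale.Agent.P227.M.pd i (Vale.Agent.P227.M.pd a g) x := by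
    intro i
    rw [pd_mul (diff_coord i x) ((hg.pd i).diff x), pd_coord, hg.comm a i x]
  simp only [e1, e2, Finset.sum_add_distrib, ite_mul, one_mul, zero_mul, Finset.sum_ite_eq',
    Finset.mem_univ, if_true]
  ring

/-- exact terms, second kind: `∫ (D_e g - x_e g) dμ = 0` -/
theorem null_DA (h : MM ψ V c C M) (hV : ContDiff ℝ 1 V) {g : E n → ℝ} (hg : LL g) (hs : CS g) (e : Fin n) :
    Null V (fun x => fld ψ g e x - x e * g x) := by
  have h1 : Null V (fun x => ∑ f, (Vale.Agent.P227.M.pd f (fun z => tau ψ z e f * g z) x -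
      Vale.Agent.P227.M.pd f V x * (tau ψ x e f * g x))) :=
    Null.sum _ fun f _ => null_DV hV ((ll_tau h e f).mul hg) hs.mul_left f
  refine h1.congr ?_
  obtain ⟨K, hK⟩ := lip_of hg hs
  filter_upwards [ae_good h, hK.ae_differentiableAt] with x hx hgx
  have h2 : ∀ f, Vale.Agent.P227.M.pd f (fun z => tau ψ z e f * g z) x - Vale.Agent.P227.M.pd f V x * (tau ψ x e f * g x) =
      tau ψ x e f * Vale.Agent.P227.M.pd f g x -
        (Vale.Agent.P227.M.pd f V x * tau ψ x e f - Vale.Agent.P227.M.pd f (fun z => tau ψ z e f) x) * g x := by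
    intro f
    rw [pd_mul (hx.2 e f) hgx]
    ring
  simp only [h2, Finset.sum_sub_distrib]
  rw [← Finset.sum_mul, stein_ae h hx e]
  rfl

/-- integration by parts: `∫ (⟨∇g, τ∇G⟩ + g LG) dμ = 0` -/
theorem null_ibp (h : MM ψ V c C M) (hV : ContDiff ℝ 1 V) {g G : E n → ℝ} (hg : LL g) (hG : Sm G)
    (hs : CS g ∨ CS G) : Null V (fun x => (∑ b, Vale.Agent.P227.M.pd b g x * fld ψ G b x) + g x * Lop ψ G x) := by
  have hcs : ∀ b, CS (fun x => g x * fld ψ G b x) := by
    intro b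
    rcases hs with hs | hs
    · exact hs.mul_right
    · exact (cs_fld hs b).mul_left
  have h1 : Null V (fun x => ∑ b, (Vale.Agent.P227.M.pd b (fun z => g z * fld ψ G b z) x -
      Vale.Agent.P227.M.pd b V x * (g x * fld ψ G b x))) :=
    Null.sum _ fun b _ => null_DV hV (hg.mul (ll_fld' h hG b)) (hcs b) b
  refine h1.congr ?_
  filter_upwards [ae_good h, hg.ae_diff] with x hx hgx
  have h2 : ∀ b, Vale.Agent.P227.M.pd b (fun z => g z * fld ψ G b z) x - Vale.Agent.P227.M.pd b V x * (g x * fld ψ G b x) =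
      Vale.Agent.P227.M.pd b g x * fld ψ G b x + g x * (Vale.Agent.P227.M.pd b (fld ψ G b) x - Vale.Agent.P227.M.pd b V x * fld ψ G b x) := by
    intro b
    rw [pd_mul hgx (diff_fld hx (fun i => (hG.pd i).diff x) b)]
    ring
  simp only [h2, Finset.sum_add_distrib]
  rw [← Finset.mul_sum, div_fld h hx hG]

end Vale.Agent.P227.M.K150
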